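import Vale.Agent.Lib.P328.Defs

set_option autoImplicit false

namespace Vale.Agent.Lib.P328

variable {m n : ℕ}

/-- The matrix with `k` in cell `(i0, j0)` and zero elsewhere. -/
def cell (i0 : Fin m) (j0 : Fin n) (k : ℕ) : Matrix (Fin m) (Fin n) ℕ :=
  Matrix.of fun i j => if i = i0 ∧ j = j0 then k else 0

lemma cell_apply (i0 : Fin m) (j0 : Fin n) (k : ℕ) (i : Fin m) (j : Fin n) :
    cell i0 j0 k i j = if i = i0 ∧ j = j0 then k else 0 := rfl

lemma cell_row_sum (i0 : Fin m) (j0 : Fin n) (k : ℕ) (i : Fin m) :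
    ∑ j, cell i0 j0 k i j = if i = i0 then k else 0 := by
  simp only [cell_apply]
  by_cases h : i = i0
  · simp [h]
  · simp [h]

lemma cell_col_sum (i0 : Fin m) (j0 : Fin n) (k : ℕ) (j : Fin n) :
    ∑ i, cell i0 j0 k i j = if j = j0 then k else 0 := by
  simp only [cell_apply]
  by_cases h : j = j0
  · simp [h]
  · simp [h]

lemma tables_finite (r : Fin m → ℕ) (c : Fin n → ℕ) : (tables r c).Finite := by
  apply Set.Finite.subset (Set.finite_Iic (fun (i : Fin m) (_ : Fin n) => r i))
  intro X hX i j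
  have := hX.1 i
  calc X i j ≤ ∑ j, X i j := Finset.single_le_sum (f := fun j => X i j) (fun _ _ => Nat.zero_le _) (Finset.mem_univ j)
    _ = r i := this

lemma mem_tables_add_cell {r : Fin m → ℕ} {c : Fin n → ℕ} (i0 : Fin m) (j0 : Fin n) (k : ℕ)
    (Y : Matrix (Fin m) (Fin n) ℕ) :
    Y + cell i0 j0 k ∈ tables (Function.update r i0 (r i0 + k)) (Function.update c j0 (c j0 + k))
      ↔ Y ∈ tables r c := by
  unfold tables
  simp only [Set.mem_ofPred_eq, Matrix.add_apply, Finset.sum_add_distrib, cell_row_sum, cell_col_sum]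
  constructor
  · rintro ⟨h1, h2⟩
    refine ⟨fun i => ?_, fun j => ?_⟩
    · have := h1 i
      by_cases h : i = i0
      · subst h; simp at this; exact this
      · simp [h] at this; exact this
    · have := h2 j
      by_cases h : j = j0
      · subst h; simp at this; exact this
      · simp [h] at this; exact this
  · rintro ⟨h1, h2⟩
    refine ⟨fun i => ?_, fun j => ?_⟩
    · by_cases h : i = i0
      · subst h; simp [h1]
      · simp [h, h1]
    · by_cases h : j = j0
      · subst h; simp [h2]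
      · simp [h, h2]

/-- Shift bijection: tables with entry `(i0,j0)` at least `k` correspond to tables with
both margins lowered by `k`. -/
lemma ncard_tail (r : Fin m → ℕ) (c : Fin n → ℕ) (i0 : Fin m) (j0 : Fin n) (k : ℕ) :
    {X ∈ tables (Function.update r i0 (r i0 + k)) (Function.update c j0 (c j0 + k)) |
        k ≤ X i0 j0}.ncard = (tables r c).ncard := by
  have hinj : Function.Injective (fun Y : Matrix (Fin m) (Fin n) ℕ => Y + cell i0 j0 k) :=
    fun A B h => add_right_cancel h
  rw [← Set.ncard_image_of_injective (tables r c) hinj]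
  congr 1
  ext X
  simp only [Set.mem_ofPred_eq, Set.mem_image]
  constructor
  · rintro ⟨hX, hk⟩
    refine ⟨Matrix.of fun i j => if i = i0 ∧ j = j0 then X i j - k else X i j, ?_, ?_⟩
    · rw [← mem_tables_add_cell i0 j0 k]
      convert hX using 1
      ext i j
      simp only [Matrix.add_apply, cell_apply, Matrix.of_apply]
      by_cases h : i = i0 ∧ j = j0
      · obtain ⟨rfl, rfl⟩ := h
        simp [Nat.sub_add_cancel hk]
      · simp [h]
    · ext i j
      simp only [Matrix.add_apply, cell_apply, Matrix.of_apply]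
      by_cases h : i = i0 ∧ j = j0
      · obtain ⟨rfl, rfl⟩ := h
        simp [Nat.sub_add_cancel hk]
      · simp [h]
  · rintro ⟨Y, hY, rfl⟩
    refine ⟨(mem_tables_add_cell i0 j0 k Y).2 hY, ?_⟩
    simp [cell_apply]

lemma exists_entry_ge {r : Fin m → ℕ} {c : Fin n → ℕ} {X : Matrix (Fin m) (Fin n) ℕ}
    (hX : X ∈ tables r c) (k : ℕ) (hk : m * n * (k - 1) < ∑ i, r i) : ∃ i j, k ≤ X i j := by
  by_contra h
  push Not at h
  have h1 : ∑ i, r i = ∑ i, ∑ j, X i j := Finset.sum_congr rfl (fun i _ => (hX.1 i).symm)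
  have h2 : ∑ i, ∑ j, X i j ≤ ∑ _i : Fin m, ∑ _j : Fin n, (k - 1) :=
    Finset.sum_le_sum (fun i _ => Finset.sum_le_sum (fun j _ => by have := h i j; omega))
  simp only [Finset.sum_const, Finset.card_univ, Fintype.card_fin, smul_eq_mul] at h2
  rw [← mul_assoc] at h2
  omega

lemma exists_cell_ncard (hm : 0 < m) (hn : 0 < n) (r : Fin m → ℕ) (c : Fin n → ℕ) (k : ℕ)
    (hk : m * n * (k - 1) < ∑ i, r i) :
    ∃ i j, (tables r c).ncard ≤ m * n * {X ∈ tables r c | k ≤ X i j}.ncard := by
  by_contra h
  push Not at h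
  have hsub : tables r c ⊆ ⋃ p ∈ (Finset.univ : Finset (Fin m × Fin n)),
      {X ∈ tables r c | k ≤ X p.1 p.2} := by
    intro X hX
    obtain ⟨i, j, hij⟩ := exists_entry_ge hX k hk
    simp only [Finset.mem_univ, Set.iUnion_true, Set.mem_iUnion, Set.mem_ofPred_eq]
    exact ⟨(i, j), hX, hij⟩
  have hfin : (⋃ p ∈ (Finset.univ : Finset (Fin m × Fin n)),
      {X ∈ tables r c | k ≤ X p.1 p.2}).Finite := by
    apply Set.Finite.subset (tables_finite r c)
    intro X hX
    simp only [Finset.mem_univ, Set.iUnion_true, Set.mem_iUnion, Set.mem_ofPred_eq] at hX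
    obtain ⟨p, hp, -⟩ := hX
    exact hp
  have h1 := Set.ncard_le_ncard hsub hfin
  have h2 := Finset.set_ncard_biUnion_le (Finset.univ : Finset (Fin m × Fin n))
    (fun p => {X ∈ tables r c | k ≤ X p.1 p.2})
  have h3 : (tables r c).ncard ≤ ∑ p : Fin m × Fin n, {X ∈ tables r c | k ≤ X p.1 p.2}.ncard :=
    h1.trans h2
  have hne : (Finset.univ : Finset (Fin m × Fin n)).Nonempty := by
    rw [Finset.univ_nonempty_iff]
    exact ⟨(⟨0, hm⟩, ⟨0, hn⟩)⟩
  have h4 : ∑ p : Fin m × Fin n, m * n * {X ∈ tables r c | k ≤ X p.1 p.2}.ncard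
      < ∑ _p : Fin m × Fin n, (tables r c).ncard :=
    Finset.sum_lt_sum_of_nonempty hne (fun p _ => h p.1 p.2)
  rw [← Finset.mul_sum] at h4
  simp only [Finset.sum_const, Finset.card_univ, Fintype.card_prod, Fintype.card_fin,
    smul_eq_mul] at h4
  have h5 : m * n * (tables r c).ncard
      ≤ m * n * ∑ p : Fin m × Fin n, {X ∈ tables r c | k ≤ X p.1 p.2}.ncard :=
    Nat.mul_le_mul_left _ h3
  omega

/-- Potential bounding the length of the reduction chain. -/
def pot (q N : ℕ) : ℕ :=
  if N = 0 then 0 else q * Nat.log 2 N + ((N - 2 ^ Nat.log 2 N) * q) / 2 ^ Nat.log 2 N + 1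

lemma pot_pos (q N : ℕ) (hN : N ≠ 0) : q * Nat.log 2 N + 1 ≤ pot q N := by
  unfold pot
  rw [if_neg hN]
  exact Nat.add_le_add_right (Nat.le_add_right _ _) 1

lemma pot_le (q N : ℕ) (hq : 0 < q) : pot q N ≤ q * (Nat.log 2 N + 1) := by
  unfold pot
  split_ifs with h
  · exact Nat.zero_le _
  · have h1 : 2 ^ Nat.log 2 N ≤ N := Nat.pow_log_le_self 2 h
    have h2 : N < 2 ^ (Nat.log 2 N + 1) := Nat.lt_pow_succ_log_self (by norm_num) N
    have hpos : 0 < 2 ^ Nat.log 2 N := by positivity
    have h3 : ((N - 2 ^ Nat.log 2 N) * q) / 2 ^ Nat.log 2 N < q := by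
      rw [Nat.div_lt_iff_lt_mul hpos]
      rw [mul_comm q]
      apply Nat.mul_lt_mul_of_pos_right _ hq
      rw [pow_succ] at h2
      omega
    rw [mul_add, mul_one]
    generalize ((N - 2 ^ Nat.log 2 N) * q) / 2 ^ Nat.log 2 N = D at h3 ⊢
    omega

lemma pot_step (q N k : ℕ) (hq : 0 < q) (hk : 1 ≤ k) (hkN : k ≤ N) (hN : N ≤ q * k) :
    pot q (N - k) + 1 ≤ pot q N := by
  have hN0 : N ≠ 0 := by omega
  by_cases h0 : N - k = 0
  · have := pot_pos q N hN0
    have e : pot q (N - k) = 0 := by unfold pot; rw [if_pos h0]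
    omega
  · have hlog : Nat.log 2 (N - k) ≤ Nat.log 2 N := Nat.log_mono_right (Nat.sub_le _ _)
    rcases Nat.lt_or_eq_of_le hlog with hlt | heq
    · have h1 := pot_le q (N - k) hq
      have h2 : q * (Nat.log 2 (N - k) + 1) ≤ q * Nat.log 2 N := Nat.mul_le_mul_left _ hlt
      have h3 := pot_pos q N hN0
      omega
    · unfold pot
      rw [if_neg h0, if_neg hN0, heq]
      have hpos : 0 < 2 ^ Nat.log 2 N := by positivity
      have h1 : 2 ^ Nat.log 2 N ≤ N - k := by
        rw [← heq]; exact Nat.pow_log_le_self 2 h0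
      have h2 : 2 ^ Nat.log 2 N ≤ N := Nat.pow_log_le_self 2 hN0
      have h3 : (N - k - 2 ^ Nat.log 2 N) * q + 2 ^ Nat.log 2 N ≤ (N - 2 ^ Nat.log 2 N) * q := by
        have e : N - 2 ^ Nat.log 2 N = (N - k - 2 ^ Nat.log 2 N) + k := by omega
        rw [e, add_mul]
        have : 2 ^ Nat.log 2 N ≤ k * q := by rw [mul_comm]; omega
        omega
      have h4 : ((N - k - 2 ^ Nat.log 2 N) * q) / 2 ^ Nat.log 2 N + 1
          ≤ ((N - 2 ^ Nat.log 2 N) * q) / 2 ^ Nat.log 2 N := by
        rw [← Nat.add_div_right _ hpos]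
        exact Nat.div_le_div_right h3
      generalize ((N - k - 2 ^ Nat.log 2 N) * q) / 2 ^ Nat.log 2 N = D1 at h4 ⊢
      generalize ((N - 2 ^ Nat.log 2 N) * q) / 2 ^ Nat.log 2 N = D2 at h4 ⊢
      omega

lemma update_sub_add {α : Type*} [DecidableEq α] (r : α → ℕ) (i : α) (k : ℕ) (hk : k ≤ r i) :
    Function.update (Function.update r i (r i - k)) i
      (Function.update r i (r i - k) i + k) = r := by
  funext x
  by_cases h : x = i
  · subst h; simp [Nat.sub_add_cancel hk]
  · simp [h]

lemma sum_update_sub {α : Type*} [Fintype α] [DecidableEq α] (r : α → ℕ) (i : α) (k : ℕ)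
    (hk : k ≤ r i) : ∑ x, Function.update r i (r i - k) x = ∑ x, r x - k := by
  rw [Finset.sum_update_of_mem (Finset.mem_univ i)]
  have := Finset.add_sum_erase Finset.univ r (Finset.mem_univ i)
  rw [Finset.sdiff_singleton_eq_erase]
  omega

lemma entry_le_row {r : Fin m → ℕ} {c : Fin n → ℕ} {X : Matrix (Fin m) (Fin n) ℕ}
    (hX : X ∈ tables r c) (i : Fin m) (j : Fin n) : X i j ≤ r i := by
  rw [← hX.1 i]
  exact Finset.single_le_sum (f := fun j => X i j) (fun _ _ => Nat.zero_le _) (Finset.mem_univ j)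

lemma entry_le_col {r : Fin m → ℕ} {c : Fin n → ℕ} {X : Matrix (Fin m) (Fin n) ℕ}
    (hX : X ∈ tables r c) (i : Fin m) (j : Fin n) : X i j ≤ c j := by
  rw [← hX.2 j]
  exact Finset.single_le_sum (f := fun i => X i j) (fun _ _ => Nat.zero_le _) (Finset.mem_univ i)

lemma ncard_tables_zero (r : Fin m → ℕ) (c : Fin n → ℕ) (hr : ∀ i, r i = 0)
    (hc : ∀ j, c j = 0) : (tables r c).ncard = 1 := by
  have : tables r c = {0} := by
    ext X
    simp only [Set.mem_singleton_iff]
    constructor
    · intro hX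
      ext i j
      have := entry_le_row hX i j
      rw [hr i] at this
      simpa using this
    · rintro rfl
      exact ⟨fun i => by simp [hr i], fun j => by simp [hc j]⟩
  rw [this, Set.ncard_singleton]

/-- Tables with balanced margins exist. -/
lemma tables_nonempty : ∀ (N : ℕ) (r : Fin m → ℕ) (c : Fin n → ℕ),
    ∑ i, r i = N → ∑ j, c j = N → (tables r c).Nonempty := by
  intro N
  induction N with
  | zero =>
    intro r c hr hc
    refine ⟨0, fun i => ?_, fun j => ?_⟩
    · have := (Finset.sum_eq_zero_iff.mp hr) i (Finset.mem_univ i)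
      simp [this]
    · have := (Finset.sum_eq_zero_iff.mp hc) j (Finset.mem_univ j)
      simp [this]
  | succ N ih =>
    intro r c hr hc
    have hi : ∃ i, 1 ≤ r i := by
      by_contra h
      push Not at h
      have : ∑ i, r i = 0 := Finset.sum_eq_zero (fun i _ => by have := h i; omega)
      omega
    have hj : ∃ j, 1 ≤ c j := by
      by_contra h
      push Not at h
      have : ∑ j, c j = 0 := Finset.sum_eq_zero (fun j _ => by have := h j; omega)
      omega
    obtain ⟨i, hi⟩ := hi
    obtain ⟨j, hj⟩ := hj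
    obtain ⟨Y, hY⟩ := ih (Function.update r i (r i - 1)) (Function.update c j (c j - 1))
      (by rw [sum_update_sub r i 1 hi]; omega) (by rw [sum_update_sub c j 1 hj]; omega)
    refine ⟨Y + cell i j 1, ?_⟩
    have := (mem_tables_add_cell (r := Function.update r i (r i - 1))
      (c := Function.update c j (c j - 1)) i j 1 Y).2 hY
    rwa [update_sub_add r i 1 hi, update_sub_add c j 1 hj] at this

/-- The reduction chain, proved by strong induction on the total. -/
lemma chain_exists (hm : 0 < m) (hn : 0 < n) : ∀ (N : ℕ) (r : Fin m → ℕ) (c : Fin n → ℕ),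
    ∑ i, r i = N → ∑ j, c j = N →
    ∃ (T : ℕ) (R : ℕ → Fin m → ℕ) (C : ℕ → Fin n → ℕ) (I : ℕ → Fin m) (J : ℕ → Fin n)
      (K : ℕ → ℕ),
      T ≤ pot (m * n) N ∧ R 0 = r ∧ C 0 = c ∧ (∀ i, R T i = 0) ∧ (∀ j, C T j = 0) ∧
      ∀ t < T,
        1 ≤ K t ∧ K t ≤ R t (I t) ∧ K t ≤ C t (J t) ∧
        R (t + 1) = Function.update (R t) (I t) (R t (I t) - K t) ∧
        C (t + 1) = Function.update (C t) (J t) (C t (J t) - K t) ∧
        ∑ i, R t i ≤ m * n * K t ∧
        (tables (R (t + 1)) (C (t + 1))).ncard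
          = {X ∈ tables (R t) (C t) | K t ≤ X (I t) (J t)}.ncard ∧
        0 < (tables (R (t + 1)) (C (t + 1))).ncard ∧
        (tables (R t) (C t)).ncard ≤ m * n * (tables (R (t + 1)) (C (t + 1))).ncard := by
  intro N
  induction N using Nat.strong_induction_on with
  | _ N ih =>
    intro r c hr hc
    by_cases hN : N = 0
    · subst hN
      have hr0 : ∀ i, r i = 0 := fun i => (Finset.sum_eq_zero_iff.mp hr) i (Finset.mem_univ i)
      have hc0 : ∀ j, c j = 0 := fun j => (Finset.sum_eq_zero_iff.mp hc) j (Finset.mem_univ j)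
      exact ⟨0, fun _ => r, fun _ => c, fun _ => ⟨0, hm⟩, fun _ => ⟨0, hn⟩, fun _ => 0,
        Nat.zero_le _, rfl, rfl, hr0, hc0, fun t ht => absurd ht (Nat.not_lt_zero t)⟩
    · have hq : 0 < m * n := Nat.mul_pos hm hn
      obtain ⟨k, hk1, hk2, hk3⟩ : ∃ k, 1 ≤ k ∧ m * n * (k - 1) < N ∧ N ≤ m * n * k := by
        refine ⟨(N + m * n - 1) / (m * n), ?_, ?_, ?_⟩
        · rw [Nat.le_div_iff_mul_le hq]; omega
        · have h1 : (N + m * n - 1) / (m * n) * (m * n) ≤ N + m * n - 1 := Nat.div_mul_le_self _ _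
          have h2 : m * n * ((N + m * n - 1) / (m * n) - 1)
              = (N + m * n - 1) / (m * n) * (m * n) - m * n := by
            rw [Nat.mul_sub, mul_one, mul_comm]
          omega
        · have h1 := Nat.lt_div_mul_add (a := N + m * n - 1) hq
          rw [mul_comm]
          omega
      obtain ⟨i, j, hij⟩ := exists_cell_ncard hm hn r c k (by rw [hr]; exact hk2)
      have hne : (tables r c).Nonempty := tables_nonempty N r c hr hc
      have hpos : 0 < (tables r c).ncard := (Set.ncard_pos (tables_finite r c)).2 hne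
      have hApos : 0 < {X ∈ tables r c | k ≤ X i j}.ncard := by
        by_contra h0
        have h0' : {X ∈ tables r c | k ≤ X i j}.ncard = 0 := by omega
        rw [h0'] at hij
        omega
      have hAfin : {X ∈ tables r c | k ≤ X i j}.Finite :=
        (tables_finite r c).subset (fun X hX => hX.1)
      obtain ⟨X, hX, hXk⟩ := (Set.ncard_pos hAfin).1 hApos
      have hkr : k ≤ r i := hXk.trans (entry_le_row hX i j)
      have hkc : k ≤ c j := hXk.trans (entry_le_col hX i j)
      have hkN : k ≤ N := by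
        rw [← hr]
        exact hkr.trans (Finset.single_le_sum (f := r) (fun _ _ => Nat.zero_le _)
          (Finset.mem_univ i))
      have hcard : (tables (Function.update r i (r i - k)) (Function.update c j (c j - k))).ncard
          = {X ∈ tables r c | k ≤ X i j}.ncard := by
        have := ncard_tail (Function.update r i (r i - k)) (Function.update c j (c j - k)) i j k
        rw [update_sub_add r i k hkr, update_sub_add c j k hkc] at this
        exact this.symm
      obtain ⟨T', R', C', I', J', K', hT', hR0, hC0, hRT, hCT, hstep⟩ :=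
        ih (N - k) (by omega) (Function.update r i (r i - k)) (Function.update c j (c j - k))
          (by rw [sum_update_sub r i k hkr, hr]) (by rw [sum_update_sub c j k hkc, hc])
      refine ⟨T' + 1, fun t => Nat.casesOn t r R', fun t => Nat.casesOn t c C',
        fun t => Nat.casesOn t i I', fun t => Nat.casesOn t j J', fun t => Nat.casesOn t k K',
        ?_, rfl, rfl, hRT, hCT, ?_⟩
      · have := pot_step (m * n) N k hq hk1 hkN hk3
        omega
      · intro t ht
        cases t with
        | zero =>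
          refine ⟨hk1, hkr, hkc, hR0, hC0, ?_, ?_, ?_, ?_⟩
          · show ∑ i, r i ≤ m * n * k
            rw [hr]; exact hk3
          · show (tables (R' 0) (C' 0)).ncard = {X ∈ tables r c | k ≤ X i j}.ncard
            rw [hR0, hC0]; exact hcard
          · show 0 < (tables (R' 0) (C' 0)).ncard
            rw [hR0, hC0, hcard]; exact hApos
          · show (tables r c).ncard ≤ m * n * (tables (R' 0) (C' 0)).ncard
            rw [hR0, hC0, hcard]; exact hij
        | succ t =>
          exact hstep t (by omega)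

/-- The reduction chain with the explicit logarithmic length bound. -/
theorem chain_theorem (m n : ℕ) (hm : 0 < m) (hn : 0 < n) (r : Fin m → ℕ) (c : Fin n → ℕ)
    (h : ∑ i, r i = ∑ j, c j) :
    ∃ (T : ℕ) (R : ℕ → Fin m → ℕ) (C : ℕ → Fin n → ℕ) (I : ℕ → Fin m) (J : ℕ → Fin n)
      (K : ℕ → ℕ),
      T ≤ m * n * (Nat.log 2 (∑ i, r i) + 1) ∧ R 0 = r ∧ C 0 = c ∧
      (∀ i, R T i = 0) ∧ (∀ j, C T j = 0) ∧ (tables (R T) (C T)).ncard = 1 ∧
      ∀ t < T,
        1 ≤ K t ∧ K t ≤ R t (I t) ∧ K t ≤ C t (J t) ∧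
        R (t + 1) = Function.update (R t) (I t) (R t (I t) - K t) ∧
        C (t + 1) = Function.update (C t) (J t) (C t (J t) - K t) ∧
        ∑ i, R t i ≤ m * n * K t ∧
        (tables (R t) (C t)).Finite ∧
        (tables (R (t + 1)) (C (t + 1))).ncard
          = {X ∈ tables (R t) (C t) | K t ≤ X (I t) (J t)}.ncard ∧
        0 < (tables (R (t + 1)) (C (t + 1))).ncard ∧
        (tables (R t) (C t)).ncard ≤ m * n * (tables (R (t + 1)) (C (t + 1))).ncard := by
  obtain ⟨T, R, C, I, J, K, hT, hR0, hC0, hRT, hCT, hstep⟩ :=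
    chain_exists hm hn (∑ i, r i) r c rfl h.symm
  refine ⟨T, R, C, I, J, K, hT.trans (pot_le _ _ (Nat.mul_pos hm hn)), hR0, hC0, hRT, hCT,
    ncard_tables_zero _ _ hRT hCT, fun t ht => ?_⟩
  obtain ⟨h1, h2, h3, h4, h5, h6, h7, h8, h9⟩ := hstep t ht
  exact ⟨h1, h2, h3, h4, h5, h6, tables_finite _ _, h7, h8, h9⟩

/-- The rectangle move used in the local ratio bound. -/
def move (X : Matrix (Fin m) (Fin n) ℕ) (i i' : Fin m) (j j' : Fin n) :
    Matrix (Fin m) (Fin n) ℕ :=
  (X + cell i j 1 + cell i' j' 1) - (cell i' j 1 + cell i j' 1)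

lemma move_add {X : Matrix (Fin m) (Fin n) ℕ} {i i' : Fin m} {j j' : Fin n}
    (h0 : X i j = 0) (h1 : 1 ≤ X i' j) (h2 : 1 ≤ X i j') :
    move X i i' j j' + (cell i' j 1 + cell i j' 1) = X + cell i j 1 + cell i' j' 1 := by
  have hi : i' ≠ i := by rintro rfl; omega
  have hj : j' ≠ j := by rintro rfl; omega
  ext a b
  simp only [move, Matrix.add_apply, Matrix.sub_apply, cell_apply]
  by_cases ha : a = i <;> by_cases ha' : a = i' <;> by_cases hb : b = j <;> by_cases hb' : b = j' <;>
    simp_all

lemma move_mem {r : Fin m → ℕ} {c : Fin n → ℕ} {X : Matrix (Fin m) (Fin n) ℕ}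
    {i i' : Fin m} {j j' : Fin n} (hX : X ∈ tables r c)
    (h0 : X i j = 0) (h1 : 1 ≤ X i' j) (h2 : 1 ≤ X i j') :
    move X i i' j j' ∈ tables r c := by
  have key := move_add h0 h1 h2
  constructor
  · intro a
    have := congrArg (fun M : Matrix (Fin m) (Fin n) ℕ => ∑ b, M a b) key
    simp only [Matrix.add_apply, Finset.sum_add_distrib, cell_row_sum] at this
    have hr := hX.1 a
    omega
  · intro b
    have := congrArg (fun M : Matrix (Fin m) (Fin n) ℕ => ∑ a, M a b) key
    simp only [Matrix.add_apply, Finset.sum_add_distrib, cell_col_sum] at this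
    have hc := hX.2 b
    omega

lemma move_apply_self {X : Matrix (Fin m) (Fin n) ℕ} {i i' : Fin m} {j j' : Fin n}
    (h0 : X i j = 0) (h1 : 1 ≤ X i' j) (h2 : 1 ≤ X i j') :
    move X i i' j j' i j = 1 := by
  have hi : i ≠ i' := by rintro rfl; omega
  have hj : j ≠ j' := by rintro rfl; omega
  simp [move, Matrix.sub_apply, cell_apply, h0, hi, hj]

/-- Uniform local ratio bound. -/
lemma ratio_bound (r : Fin m → ℕ) (c : Fin n → ℕ) (i : Fin m) (j : Fin n)
    (hr : 1 ≤ r i) (hc : 1 ≤ c j) :
    (tables r c).ncard ≤ (1 + (m - 1) * (n - 1)) *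
      (tables (Function.update r i (r i - 1)) (Function.update c j (c j - 1))).ncard := by
  classical
  set B : Set (Matrix (Fin m) (Fin n) ℕ) := {X ∈ tables r c | 1 ≤ X i j} with hB
  set A : Set (Matrix (Fin m) (Fin n) ℕ) := {X ∈ tables r c | X i j = 0} with hA
  have hBfin : B.Finite := (tables_finite r c).subset (fun X hX => hX.1)
  have hAfin : A.Finite := (tables_finite r c).subset (fun X hX => hX.1)
  have hBcard : B.ncard
      = (tables (Function.update r i (r i - 1)) (Function.update c j (c j - 1))).ncard := by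
    have := ncard_tail (Function.update r i (r i - 1)) (Function.update c j (c j - 1)) i j 1
    rw [update_sub_add r i 1 hr, update_sub_add c j 1 hc] at this
    exact this
  have hunion : tables r c ⊆ A ∪ B := by
    intro X hX
    by_cases h : X i j = 0
    · exact Or.inl ⟨hX, h⟩
    · exact Or.inr ⟨hX, by omega⟩
  have h1 : (tables r c).ncard ≤ A.ncard + B.ncard :=
    (Set.ncard_le_ncard hunion (hAfin.union hBfin)).trans (Set.ncard_union_le A B)
  -- existence of the pivots
  have hex : ∀ X ∈ A, (∃ i', 1 ≤ X i' j) ∧ (∃ j', 1 ≤ X i j') := by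
    intro X hX
    constructor
    · by_contra h
      push Not at h
      have : ∑ a, X a j = 0 := Finset.sum_eq_zero (fun a _ => by have := h a; omega)
      have := hX.1.2 j
      omega
    · by_contra h
      push Not at h
      have : ∑ b, X i b = 0 := Finset.sum_eq_zero (fun b _ => by have := h b; omega)
      have := hX.1.1 i
      omega
  let f : Matrix (Fin m) (Fin n) ℕ → Matrix (Fin m) (Fin n) ℕ × (Fin m × Fin n) := fun X =>
    if h : (∃ i', 1 ≤ X i' j) ∧ (∃ j', 1 ≤ X i j') then
      (move X i h.1.choose j h.2.choose, (h.1.choose, h.2.choose))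
    else (X, (i, j))
  let S : Set (Matrix (Fin m) (Fin n) ℕ × (Fin m × Fin n)) :=
    B ×ˢ ((↑(Finset.univ.erase i) : Set (Fin m)) ×ˢ (↑(Finset.univ.erase j) : Set (Fin n)))
  have hSfin : S.Finite := hBfin.prod (Set.toFinite _)
  have hmaps : ∀ X ∈ A, f X ∈ S := by
    intro X hX
    have h := hex X hX
    have hi1 := h.1.choose_spec
    have hj1 := h.2.choose_spec
    simp only [f, dif_pos h]
    refine ⟨⟨move_mem hX.1 hX.2 hi1 hj1, ?_⟩, ?_, ?_⟩
    · exact le_of_eq (move_apply_self hX.2 hi1 hj1).symm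
    · simp only [Finset.coe_erase, Finset.coe_univ, Set.mem_sdiff, Set.mem_univ,
        Set.mem_singleton_iff, true_and]
      rintro e
      rw [e, hX.2] at hi1
      omega
    · simp only [Finset.coe_erase, Finset.coe_univ, Set.mem_sdiff, Set.mem_univ,
        Set.mem_singleton_iff, true_and]
      rintro e
      rw [e, hX.2] at hj1
      omega
  have hinj : Set.InjOn f A := by
    intro X1 hX1 X2 hX2 heq
    have h1' := hex X1 hX1
    have h2' := hex X2 hX2
    simp only [f, dif_pos h1', dif_pos h2'] at heq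
    have e1 := move_add hX1.2 h1'.1.choose_spec h1'.2.choose_spec
    have e2 := move_add hX2.2 h2'.1.choose_spec h2'.2.choose_spec
    obtain ⟨hm, hp⟩ := Prod.mk.inj heq
    obtain ⟨hp1, hp2⟩ := Prod.mk.inj hp
    rw [hm, hp1, hp2] at e1
    rw [e1] at e2
    exact add_right_cancel (add_right_cancel e2)
  have h2 : A.ncard ≤ S.ncard := Set.ncard_le_ncard_of_injOn f hmaps hinj hSfin
  have h3 : S.ncard = B.ncard * ((m - 1) * (n - 1)) := by
    simp only [S]
    rw [Set.ncard_prod, Set.ncard_prod, Set.ncard_coe_finset, Set.ncard_coe_finset,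
      Finset.card_erase_of_mem (Finset.mem_univ i), Finset.card_erase_of_mem (Finset.mem_univ j),
      Finset.card_univ, Finset.card_univ, Fintype.card_fin, Fintype.card_fin]
  rw [← hBcard]
  rw [h3] at h2
  have : (1 + (m - 1) * (n - 1)) * B.ncard = B.ncard + B.ncard * ((m - 1) * (n - 1)) := by ring
  omega

/-- Two-sided local ratio bound, with finiteness and the tail-event interpretation. -/
theorem ratio_theorem (m n : ℕ) (r : Fin m → ℕ) (c : Fin n → ℕ) (i : Fin m) (j : Fin n)
    (hr : 1 ≤ r i) (hc : 1 ≤ c j) :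
    (tables r c).Finite ∧
    (tables (Function.update r i (r i - 1)) (Function.update c j (c j - 1))).ncard
      = {X ∈ tables r c | 1 ≤ X i j}.ncard ∧
    (tables (Function.update r i (r i - 1)) (Function.update c j (c j - 1))).ncard
      ≤ (tables r c).ncard ∧
    (tables r c).ncard ≤ (1 + (m - 1) * (n - 1)) *
      (tables (Function.update r i (r i - 1)) (Function.update c j (c j - 1))).ncard := by
  have hcard : (tables (Function.update r i (r i - 1)) (Function.update c j (c j - 1))).ncard
      = {X ∈ tables r c | 1 ≤ X i j}.ncard := by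
    have := ncard_tail (Function.update r i (r i - 1)) (Function.update c j (c j - 1)) i j 1
    rw [update_sub_add r i 1 hr, update_sub_add c j 1 hc] at this
    exact this.symm
  refine ⟨tables_finite r c, hcard, ?_, ratio_bound r c i j hr hc⟩
  rw [hcard]
  exact Set.ncard_le_ncard (fun X hX => hX.1) (tables_finite r c)

end Vale.Agent.Lib.P328
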